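import Mathlib

/-!
# Towers of Paley digits: a new lower bound for square-difference-free sets

Ruzsa's construction uses a squarefree modulus `m` and a set of residues with no square
difference modulo `m`.  Here we use the non-squarefree moduli `5^(2k) 41^(2l)`, where the
digits modulo `5` and modulo `41` may be consumed at different rates.  The base pattern is:
ten classes modulo `205` together with one full class modulo `41` (the class of `3`),
any two of which differ by a non-residue modulo `5` or modulo `41`.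
-/

namespace Vale.Agent.P042

/-- `d` is not a square modulo `M`. -/
def NS (M d : ℤ) : Prop := ∀ s w : ℤ, d ≠ s ^ 2 + M * w

lemma NS.of_dvd {M M' d : ℤ} (h : M ∣ M') (hd : NS M d) : NS M' d := by
  intro s w e
  obtain ⟨c, rfl⟩ := h
  exact hd s (c * w) (by rw [e]; ring)

lemma NS.add_mul {M d : ℤ} (hd : NS M d) (w : ℤ) : NS M (d + M * w) := by
  intro s w' e
  exact hd s (w' - w) (by linear_combination e)

lemma square_dvd_cancel {m d s : ℤ} (hm : m ≠ 0) (e : m ^ 2 * d = s ^ 2) :
    ∃ t : ℤ, d = t ^ 2 := by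
  have h1 : m ^ 2 ∣ s ^ 2 := ⟨d, e.symm⟩
  have h2 : m ∣ s := (Int.pow_dvd_pow_iff (by norm_num)).1 h1
  obtain ⟨t, rfl⟩ := h2
  refine ⟨t, ?_⟩
  have hm2 : m ^ 2 ≠ 0 := pow_ne_zero 2 hm
  apply mul_left_cancel₀ hm2
  linear_combination e

lemma NS.scale {m M d : ℤ} (hm : m ≠ 0) (hd : NS M d) : NS (m ^ 2 * M) (m ^ 2 * d) := by
  intro s w e
  have h1 : m ^ 2 ∣ s ^ 2 := ⟨d - M * w, by linear_combination -e⟩
  have h2 : m ∣ s := (Int.pow_dvd_pow_iff (by norm_num)).1 h1
  obtain ⟨t, rfl⟩ := h2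
  apply hd t w
  have hm2 : m ^ 2 ≠ 0 := pow_ne_zero 2 hm
  apply mul_left_cancel₀ hm2
  linear_combination e

lemma NS.val_one {p u v : ℤ} (hp : Prime p) (hu : ¬ p ∣ u) :
    NS (p ^ 2) (p * u + p ^ 2 * v) := by
  intro s w e
  have h1 : p ∣ s ^ 2 := ⟨u + p * v - p * w, by linear_combination -e⟩
  obtain ⟨t, rfl⟩ := hp.dvd_of_dvd_pow h1
  apply hu
  refine ⟨t ^ 2 + w - v, ?_⟩
  apply mul_left_cancel₀ hp.ne_zero
  linear_combination e

/-- Finite check that `t - t'` is a non-residue modulo `p`. -/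
def sepAt (p t t' : ℕ) : Bool :=
  (List.range p).all (fun s => (s * s + t') % p != t % p)

lemma NS_of_sepAt {p t t' : ℕ} (hp : 0 < p) (h : sepAt p t t' = true) :
    NS (p : ℤ) ((t : ℤ) - t') := by
  intro s w e
  have hpos : (0 : ℤ) < p := by exact_mod_cast hp
  have hnn : 0 ≤ s % (p : ℤ) := Int.emod_nonneg _ hpos.ne'
  have hlt : s % (p : ℤ) < p := Int.emod_lt_of_pos _ hpos
  obtain ⟨s0, hs0⟩ := Int.eq_ofNat_of_zero_le hnn
  have hs0lt : s0 < p := by
    have : (s0 : ℤ) < p := by rw [← hs0]; exact hlt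
    exact_mod_cast this
  have hall := List.all_eq_true.1 h s0 (List.mem_range.2 hs0lt)
  have hne : (s0 * s0 + t') % p ≠ t % p := by simpa using hall
  apply hne
  have h1 : (s0 : ℤ) ≡ s [ZMOD p] := by
    rw [← hs0]; exact Int.mod_modEq s p
  have h2 : ((s0 * s0 + t' : ℕ) : ℤ) ≡ (t : ℤ) [ZMOD p] := by
    have h3 : (s0 : ℤ) * s0 ≡ s * s [ZMOD p] := h1.mul h1
    have h4 : (s0 : ℤ) * s0 + t' ≡ s * s + t' [ZMOD p] := h3.add_right _
    have h5 : s * s + (t' : ℤ) ≡ (t : ℤ) [ZMOD p] := by
      have : (t : ℤ) = s * s + t' + p * w := by linear_combination e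
      rw [this]
      exact (Int.modEq_iff_dvd.2 ⟨w, by ring⟩)
    push_cast
    exact h4.trans h5
  exact (Int.natCast_modEq_iff).1 h2

/-- The ten classes modulo `205` of the base pattern. -/
def T10 : Finset ℕ := {0, 14, 37, 56, 71, 79, 113, 148, 150, 182}

lemma T10_sep : ∀ t ∈ T10, ∀ t' ∈ T10, t ≠ t' →
    sepAt 5 t t' = true ∨ sepAt 41 t t' = true := by decide

lemma T10_col : ∀ t ∈ T10, sepAt 41 t 3 = true ∧ sepAt 41 3 t = true := by decide

lemma T10_lt : ∀ t ∈ T10, t < 205 := by decide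

lemma T10_mod : ∀ t ∈ T10, t % 41 ≠ 3 := by decide

/-- A set of residues modulo `M` with no square difference modulo `M`. -/
structure Good (M : ℕ) (A : Finset ℕ) : Prop where
  lt : ∀ a ∈ A, a < M
  ns : ∀ a ∈ A, ∀ b ∈ A, a ≠ b → NS (M : ℤ) ((a : ℤ) - b)

/-- Point part of the pattern: a class of `T10`, a free digit, and a lower element. -/
def Tpart (A : Finset ℕ) : Finset ℕ :=
  ((T10 ×ˢ Finset.range 205) ×ˢ A).image (fun x => x.1.1 + 205 * x.1.2 + 42025 * x.2)

/-- Column part of the pattern: the class of `3` modulo `41`, a free digit, a lower element. -/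
def Cpart (B : Finset ℕ) : Finset ℕ :=
  (Finset.range 41 ×ˢ B).image (fun x => 3 + 41 * x.1 + 1681 * x.2)

lemma card_Tpart (A : Finset ℕ) : (Tpart A).card = 2050 * A.card := by
  unfold Tpart
  rw [Finset.card_image_of_injOn, Finset.card_product, Finset.card_product, Finset.card_range]
  · have : T10.card = 10 := by decide
    rw [this]
  · rintro ⟨⟨t, e⟩, a⟩ hx ⟨⟨t2, e2⟩, a2⟩ hy hxy
    simp only [Finset.coe_product, Set.mem_prod, Finset.mem_coe, Finset.mem_range] at hx hy
    have h1 := T10_lt t hx.1.1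
    have h2 := T10_lt t2 hy.1.1
    have h3 := hx.1.2
    have h4 := hy.1.2
    simp only at hxy
    have e1 : t = t2 := by omega
    have e2' : e = e2 := by omega
    have e3 : a = a2 := by omega
    rw [e1, e2', e3]

lemma card_Cpart (B : Finset ℕ) : (Cpart B).card = 41 * B.card := by
  unfold Cpart
  rw [Finset.card_image_of_injOn, Finset.card_product, Finset.card_range]
  · rintro ⟨e, a⟩ hx ⟨e2, a2⟩ hy hxy
    simp only [Finset.coe_product, Set.mem_prod, Finset.mem_coe, Finset.mem_range] at hx hy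
    have h3 := hx.1
    have h4 := hy.1
    simp only at hxy
    have e2' : e = e2 := by omega
    have e3 : a = a2 := by omega
    rw [e2', e3]

lemma disjoint_parts (A B : Finset ℕ) : Disjoint (Tpart A) (Cpart B) := by
  rw [Finset.disjoint_left]
  intro x hx hy
  obtain ⟨⟨⟨t, e⟩, a⟩, hx1, rfl⟩ := Finset.mem_image.1 hx
  obtain ⟨⟨e2, b⟩, _, hy2⟩ := Finset.mem_image.1 hy
  simp only [Finset.mem_product] at hx1
  have h := T10_mod t hx1.1.1
  simp only at hy2
  omega

lemma prime41 : Prime (41 : ℤ) := by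
  rw [Int.prime_iff_natAbs_prime]; norm_num

lemma prime5 : Prime (5 : ℤ) := by
  rw [Int.prime_iff_natAbs_prime]; norm_num

lemma Good.tpart {M : ℕ} {A : Finset ℕ} (h : Good M A) : Good (42025 * M) (Tpart A) := by
  constructor
  · intro x hx
    obtain ⟨⟨⟨t, e⟩, a⟩, hx1, rfl⟩ := Finset.mem_image.1 hx
    simp only [Finset.mem_product, Finset.mem_range] at hx1
    have h1 := T10_lt t hx1.1.1
    have h2 := hx1.1.2
    have h3 := h.lt a hx1.2
    show t + 205 * e + 42025 * a < 42025 * M
    omega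
  · intro x hx y hy hxy
    obtain ⟨⟨⟨t, e⟩, a⟩, hx1, rfl⟩ := Finset.mem_image.1 hx
    obtain ⟨⟨⟨t2, e2⟩, a2⟩, hy1, rfl⟩ := Finset.mem_image.1 hy
    simp only [Finset.mem_product, Finset.mem_range] at hx1 hy1
    simp only at hxy ⊢
    by_cases ht : t = t2
    · subst ht
      by_cases he : e = e2
      · subst he
        have ha : a ≠ a2 := by rintro rfl; exact hxy rfl
        have hns := (h.ns a hx1.2 a2 hy1.2 ha).scale (m := 205) (by norm_num)
        have e1 : (((42025 * M : ℕ) : ℤ)) = (205 : ℤ) ^ 2 * (M : ℤ) := by push_cast; ring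
        rw [e1]
        convert hns using 1
        push_cast; ring
      · -- the free digits differ: odd valuation at 5 or at 41
        have hd : (e : ℤ) - e2 ≠ 0 := by
          intro h0; apply he; omega
        have hb1 := hx1.1.2
        have hb2 := hy1.1.2
        have hcase : ¬ ((5 : ℤ) ∣ ((e : ℤ) - e2)) ∨ ¬ ((41 : ℤ) ∣ ((e : ℤ) - e2)) := by
          by_contra hcon
          rw [not_or, not_not, not_not] at hcon
          omega
        rcases hcase with h5 | h41
        · have hu : ¬ (5 : ℤ) ∣ 41 * ((e : ℤ) - e2) := by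
            intro hh; apply h5; omega
          have hns := NS.val_one (v := 1681 * ((a : ℤ) - a2)) prime5 hu
          have hdv : ((5 : ℤ) ^ 2) ∣ ((42025 * M : ℕ) : ℤ) :=
            ⟨1681 * M, by push_cast; ring⟩
          refine NS.of_dvd hdv ?_
          convert hns using 1
          push_cast; ring
        · have hu : ¬ (41 : ℤ) ∣ 5 * ((e : ℤ) - e2) := by
            intro hh; apply h41; omega
          have hns := NS.val_one (v := 25 * ((a : ℤ) - a2)) prime41 hu
          have hdv : ((41 : ℤ) ^ 2) ∣ ((42025 * M : ℕ) : ℤ) :=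
            ⟨25 * M, by push_cast; ring⟩
          refine NS.of_dvd hdv ?_
          convert hns using 1
          push_cast; ring
    · rcases T10_sep t hx1.1.1 t2 hy1.1.1 ht with h5 | h41
      · have hns := (NS_of_sepAt (p := 5) (by norm_num) h5).add_mul
          (41 * ((e : ℤ) - e2) + 8405 * ((a : ℤ) - a2))
        have hdv : ((5 : ℕ) : ℤ) ∣ ((42025 * M : ℕ) : ℤ) :=
          ⟨8405 * M, by push_cast; ring⟩
        refine NS.of_dvd hdv ?_
        convert hns using 1
        push_cast; ring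
      · have hns := (NS_of_sepAt (p := 41) (by norm_num) h41).add_mul
          (5 * ((e : ℤ) - e2) + 1025 * ((a : ℤ) - a2))
        have hdv : ((41 : ℕ) : ℤ) ∣ ((42025 * M : ℕ) : ℤ) :=
          ⟨1025 * M, by push_cast; ring⟩
        refine NS.of_dvd hdv ?_
        convert hns using 1
        push_cast; ring

lemma Good.cpart {M : ℕ} {B : Finset ℕ} (h : Good M B) : Good (1681 * M) (Cpart B) := by
  constructor
  · intro x hx
    obtain ⟨⟨e, a⟩, hx1, rfl⟩ := Finset.mem_image.1 hx
    simp only [Finset.mem_product, Finset.mem_range] at hx1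
    have h2 := hx1.1
    have h3 := h.lt a hx1.2
    show 3 + 41 * e + 1681 * a < 1681 * M
    omega
  · intro x hx y hy hxy
    obtain ⟨⟨e, a⟩, hx1, rfl⟩ := Finset.mem_image.1 hx
    obtain ⟨⟨e2, a2⟩, hy1, rfl⟩ := Finset.mem_image.1 hy
    simp only [Finset.mem_product, Finset.mem_range] at hx1 hy1
    simp only at hxy ⊢
    by_cases he : e = e2
    · subst he
      have ha : a ≠ a2 := by rintro rfl; exact hxy rfl
      have hns := (h.ns a hx1.2 a2 hy1.2 ha).scale (m := 41) (by norm_num)
      have e1 : (((1681 * M : ℕ) : ℤ)) = (41 : ℤ) ^ 2 * (M : ℤ) := by push_cast; ring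
      rw [e1]
      convert hns using 1
      push_cast; ring
    · have hb1 := hx1.1
      have hb2 := hy1.1
      have hu : ¬ (41 : ℤ) ∣ ((e : ℤ) - e2) := by
        intro hh; apply he; omega
      have hns := NS.val_one (v := ((a : ℤ) - a2)) prime41 hu
      have hdv : ((41 : ℤ) ^ 2) ∣ ((1681 * M : ℕ) : ℤ) := ⟨M, by push_cast; ring⟩
      refine NS.of_dvd hdv ?_
      convert hns using 1
      push_cast; ring

lemma Good.union {M : ℕ} {A B : Finset ℕ} (hA : Good (42025 * M) (Tpart A)) (hB : Good (42025 * M) (Cpart B)) :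
    Good (42025 * M) (Tpart A ∪ Cpart B) := by
  constructor
  · intro x hx
    rcases Finset.mem_union.1 hx with h | h
    · exact hA.lt x h
    · exact hB.lt x h
  · have hdv : ((41 : ℕ) : ℤ) ∣ ((42025 * M : ℕ) : ℤ) := ⟨1025 * M, by push_cast; ring⟩
    have cross : ∀ x ∈ Tpart A, ∀ y ∈ Cpart B,
        NS ((42025 * M : ℕ) : ℤ) ((x : ℤ) - y) ∧ NS ((42025 * M : ℕ) : ℤ) ((y : ℤ) - x) := by
      intro x hx y hy
      obtain ⟨⟨⟨t, e⟩, a⟩, hx1, rfl⟩ := Finset.mem_image.1 hx
      obtain ⟨⟨e2, b⟩, _, rfl⟩ := Finset.mem_image.1 hy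
      simp only [Finset.mem_product] at hx1
      obtain ⟨h1, h2⟩ := T10_col t hx1.1.1
      simp only
      constructor
      · have hns := (NS_of_sepAt (p := 41) (by norm_num) h1).add_mul
          (5 * (e : ℤ) - e2 + 1025 * (a : ℤ) - 41 * b)
        refine NS.of_dvd hdv ?_
        convert hns using 1
        push_cast; ring
      · have hns := (NS_of_sepAt (p := 41) (by norm_num) h2).add_mul
          ((e2 : ℤ) - 5 * e + 41 * b - 1025 * a)
        refine NS.of_dvd hdv ?_
        convert hns using 1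
        push_cast; ring
    intro x hx y hy hxy
    rcases Finset.mem_union.1 hx with h1 | h1 <;> rcases Finset.mem_union.1 hy with h2 | h2
    · exact hA.ns x h1 y h2 hxy
    · exact (cross x h1 y h2).1
    · exact (cross y h2 x h1).2
    · exact hB.ns x h1 y h2 hxy

/-- The sets of the recursion: `S k l` consumes `k` digits modulo `5` and `l` digits modulo `41`. -/
def S : ℕ → ℕ → Finset ℕ
  | 0, 0 => {0}
  | (_ + 1), 0 => ∅
  | 0, (l + 1) => Cpart (S 0 l)
  | (k + 1), (l + 1) => Tpart (S k l) ∪ Cpart (S (k + 1) l)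

/-- The modulus of `S k l`. -/
def Mod (k l : ℕ) : ℕ := 25 ^ k * 1681 ^ l

lemma good_S : ∀ l k : ℕ, Good (Mod k l) (S k l)
  | 0, 0 => by
      constructor
      · intro a ha
        simp [S] at ha
        simp [ha, Mod]
      · intro a ha b hb hab
        simp [S] at ha hb
        exact absurd (ha.trans hb.symm) hab
  | 0, (k + 1) => by
      constructor
      · intro a ha; simp [S] at ha
      · intro a ha; simp [S] at ha
  | (l + 1), 0 => by
      have h := (good_S l 0).cpart
      have e : 1681 * Mod 0 l = Mod 0 (l + 1) := by simp [Mod]; ring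
      rw [e] at h
      simpa [S] using h
  | (l + 1), (k + 1) => by
      have h1 := (good_S l k).tpart
      have h2 := (good_S l (k + 1)).cpart
      have e1 : 42025 * Mod k l = Mod (k + 1) (l + 1) := by simp [Mod]; ring
      have e2 : 1681 * Mod (k + 1) l = 42025 * Mod k l := by simp [Mod]; ring
      rw [e2] at h2
      have h3 := Good.union h1 h2
      rw [e1] at h3
      simpa [S] using h3

lemma card_S : ∀ l k : ℕ, (S k l).card = Nat.choose l k * 50 ^ k * 41 ^ l
  | 0, 0 => by simp [S]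
  | 0, (k + 1) => by simp [S]
  | (l + 1), 0 => by
      have h := card_S l 0
      simp only [S, card_Cpart, h]
      simp
      ring
  | (l + 1), (k + 1) => by
      have h1 := card_S l k
      have h2 := card_S l (k + 1)
      simp only [S]
      rw [Finset.card_union_of_disjoint (disjoint_parts _ _), card_Tpart, card_Cpart, h1, h2,
        Nat.choose_succ_succ]
      ring

lemma good_S_square (k l : ℕ) : Good ((5 ^ k * 41 ^ l) ^ 2) (S k l) := by
  have h := good_S l k
  have e : Mod k l = (5 ^ k * 41 ^ l) ^ 2 := by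
    unfold Mod
    rw [mul_pow, ← pow_mul, ← pow_mul, mul_comm k 2, mul_comm l 2, pow_mul, pow_mul]
    norm_num
  rwa [e] at h

lemma one_lt_base {k : ℕ} (hk : k ≠ 0) (l : ℕ) : 1 < 5 ^ k * 41 ^ l :=
  lt_of_lt_of_le (Nat.one_lt_pow hk (by norm_num))
    (Nat.le_mul_of_pos_right _ (by positivity))

/-! ### Ruzsa's tower -/

/-- Base-`M` expansions with digits in `R`. -/
def Tower (M : ℕ) (R : Finset ℕ) : ℕ → Finset ℕ
  | 0 => {0}
  | n + 1 => (R ×ˢ Tower M R n).image (fun x => x.1 + M * x.2)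

lemma Tower_props {m : ℕ} (hm : 0 < m) {R : Finset ℕ} (hR : Good (m ^ 2) R) :
    ∀ n : ℕ, (∀ a ∈ Tower (m ^ 2) R n, a < (m ^ 2) ^ n) ∧
      (Tower (m ^ 2) R n).card = R.card ^ n ∧
      (∀ a ∈ Tower (m ^ 2) R n, ∀ b ∈ Tower (m ^ 2) R n, a ≠ b →
        ∀ s : ℤ, (a : ℤ) - b ≠ s ^ 2)
  | 0 => by
      refine ⟨?_, ?_, ?_⟩
      · intro a ha; simp [Tower] at ha; simp [ha]
      · simp [Tower]
      · intro a ha b hb hab
        simp [Tower] at ha hb
        exact absurd (ha.trans hb.symm) hab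
  | n + 1 => by
      obtain ⟨ih1, ih2, ih3⟩ := Tower_props hm hR n
      have hMpos : 0 < m ^ 2 := by positivity
      refine ⟨?_, ?_, ?_⟩
      · intro x hx
        obtain ⟨⟨r, a⟩, hx1, rfl⟩ := Finset.mem_image.1 hx
        simp only [Finset.mem_product] at hx1
        have h1 := hR.lt r hx1.1
        have h2 := ih1 a hx1.2
        have h3 : r + m ^ 2 * a < m ^ 2 * (a + 1) := by nlinarith
        have h4 : m ^ 2 * (a + 1) ≤ m ^ 2 * (m ^ 2) ^ n := Nat.mul_le_mul_left _ h2
        calc r + m ^ 2 * a < m ^ 2 * (a + 1) := h3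
          _ ≤ m ^ 2 * (m ^ 2) ^ n := h4
          _ = (m ^ 2) ^ (n + 1) := by ring
      · unfold Tower
        rw [Finset.card_image_of_injOn, Finset.card_product, ih2]
        · ring
        · rintro ⟨r, a⟩ hx ⟨r2, a2⟩ hy hxy
          simp only [Finset.coe_product, Set.mem_prod, Finset.mem_coe] at hx hy
          simp only at hxy
          have h1 := hR.lt r hx.1
          have h2 := hR.lt r2 hy.1
          have e1 : r = r2 := by
            have := congrArg (· % (m ^ 2)) hxy
            simp only [Nat.add_mul_mod_self_left] at this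
            rwa [Nat.mod_eq_of_lt h1, Nat.mod_eq_of_lt h2] at this
          subst e1
          have e2 : a = a2 := by
            have : m ^ 2 * a = m ^ 2 * a2 := by omega
            exact Nat.eq_of_mul_eq_mul_left hMpos this
          rw [e2]
      · intro x hx y hy hxy s
        obtain ⟨⟨r, a⟩, hx1, rfl⟩ := Finset.mem_image.1 hx
        obtain ⟨⟨r2, a2⟩, hy1, rfl⟩ := Finset.mem_image.1 hy
        simp only [Finset.mem_product] at hx1 hy1
        simp only at hxy ⊢
        intro e
        by_cases hr : r = r2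
        · subst hr
          have ha : a ≠ a2 := by rintro rfl; exact hxy rfl
          have hm0 : (m : ℤ) ≠ 0 := by exact_mod_cast hm.ne'
          have e' : (m : ℤ) ^ 2 * ((a : ℤ) - a2) = s ^ 2 := by
            rw [← e]; push_cast; ring
          obtain ⟨t, ht⟩ := square_dvd_cancel hm0 e'
          exact ih3 a hx1.2 a2 hy1.2 ha t ht
        · refine hR.ns r hx1.1 r2 hy1.1 hr s (((a2 : ℤ) - a)) ?_
          push_cast at e ⊢
          linear_combination e

/-- From a good set modulo a perfect square to a lower bound for all `N`, with exponent `a / b`. -/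
lemma final_of_good {m : ℕ} (hm : 1 < m) {R : Finset ℕ} (hR : Good (m ^ 2) R)
    (a b : ℕ) (hb : 0 < b) (hnum : (m ^ 2) ^ a ≤ R.card ^ b) :
    ∃ c : ℝ, 0 < c ∧ ∀ N : ℕ, 1 ≤ N →
      ∃ A : Finset ℕ, (∀ x ∈ A, 1 ≤ x ∧ x ≤ N) ∧
        (∀ x ∈ A, ∀ y ∈ A, ∀ n : ℕ, 1 ≤ n → (x : ℤ) - y ≠ (n : ℤ) ^ 2) ∧
        c * (N : ℝ) ^ ((a : ℝ) / b) ≤ (A.card : ℝ) := by
  have hm0 : 0 < m := by omega
  have hM : 1 < m ^ 2 := Nat.one_lt_pow (by norm_num) hm
  have hRpos : 0 < R.card := by
    by_contra h
    have h0 : R.card = 0 := by omega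
    rw [h0, zero_pow hb.ne'] at hnum
    have : 0 < (m ^ 2) ^ a := by positivity
    omega
  -- the key real inequality: `M ^ (a / b) ≤ |R|`
  have hkey : ((m ^ 2 : ℕ) : ℝ) ^ ((a : ℝ) / b) ≤ (R.card : ℝ) := by
    have hb' : (b : ℝ) ≠ 0 := by exact_mod_cast hb.ne'
    have h1 : (((m ^ 2 : ℕ) : ℝ) ^ ((a : ℝ) / b)) ^ b = ((m ^ 2 : ℕ) : ℝ) ^ a := by
      rw [← Real.rpow_natCast, ← Real.rpow_mul (by positivity), div_mul_cancel₀ _ hb',
        Real.rpow_natCast]
    have h2 : ((m ^ 2 : ℕ) : ℝ) ^ a ≤ (R.card : ℝ) ^ b := by exact_mod_cast hnum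
    rw [← h1] at h2
    exact le_of_pow_le_pow_left₀ hb.ne' (by positivity) h2
  refine ⟨1 / (R.card : ℝ), by positivity, ?_⟩
  intro N hN
  set n := Nat.log (m ^ 2) N with hn
  obtain ⟨hT1, hT2, hT3⟩ := Tower_props hm0 hR n
  have hle : (m ^ 2) ^ n ≤ N := Nat.pow_log_le_self _ (by omega)
  have hlt : N < (m ^ 2) ^ (n + 1) := Nat.lt_pow_succ_log_self hM N
  refine ⟨(Tower (m ^ 2) R n).image (· + 1), ?_, ?_, ?_⟩
  · intro x hx
    obtain ⟨y, hy, rfl⟩ := Finset.mem_image.1 hx
    have := hT1 y hy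
    omega
  · intro x hx y hy k hk
    obtain ⟨x', hx', rfl⟩ := Finset.mem_image.1 hx
    obtain ⟨y', hy', rfl⟩ := Finset.mem_image.1 hy
    by_cases hxy : x' = y'
    · subst hxy
      intro e
      have h0 : (k : ℤ) ^ 2 = 0 := by
        push_cast at e; linarith
      have : (k : ℤ) = 0 := by simpa using h0
      have : k = 0 := by exact_mod_cast this
      omega
    · have := hT3 x' hx' y' hy' hxy (k : ℤ)
      intro e
      apply this
      push_cast at e
      linarith
  · rw [Finset.card_image_of_injective _ (add_left_injective 1), hT2]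
    have hRr : (0 : ℝ) < R.card := by exact_mod_cast hRpos
    have h1 : (N : ℝ) ^ ((a : ℝ) / b) ≤ (R.card : ℝ) ^ (n + 1) := by
      have hexp : (0 : ℝ) ≤ (a : ℝ) / b := by positivity
      have h2 : (N : ℝ) ≤ (((m ^ 2 : ℕ) : ℝ)) ^ (n + 1) := by
        exact_mod_cast hlt.le
      calc (N : ℝ) ^ ((a : ℝ) / b)
          ≤ ((((m ^ 2 : ℕ) : ℝ)) ^ (n + 1)) ^ ((a : ℝ) / b) :=
            Real.rpow_le_rpow (by positivity) h2 hexp
        _ = (((m ^ 2 : ℕ) : ℝ) ^ ((a : ℝ) / b)) ^ (n + 1) := by
            rw [← Real.rpow_natCast, ← Real.rpow_natCast, ← Real.rpow_mul (by positivity),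
              ← Real.rpow_mul (by positivity), mul_comm]
        _ ≤ (R.card : ℝ) ^ (n + 1) := pow_le_pow_left₀ (by positivity) hkey _
    rw [pow_succ] at h1
    push_cast
    calc 1 / (R.card : ℝ) * (N : ℝ) ^ ((a : ℝ) / b)
        ≤ 1 / (R.card : ℝ) * ((R.card : ℝ) ^ n * R.card) := by
          apply mul_le_mul_of_nonneg_left h1 (by positivity)
      _ = (R.card : ℝ) ^ n := by field_simp

end Vale.Agent.P042
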