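import Mathlib
import Vale.Agent.P042.Tower

namespace Vale.Agent.P042

lemma numeric734 :
    (((5 ^ 825 * 41 ^ 1000) ^ 2) ^ 367 : ℕ) ≤ (S 825 1000).card ^ 500 := by
  rw [card_S]
  have hc : Nat.choose 1000 825 = Nat.descFactorial 1000 175 / Nat.factorial 175 := by
    rw [Nat.choose_symm_of_eq_add (show 1000 = 825 + 175 by norm_num),
      Nat.choose_eq_descFactorial_div_factorial]
  rw [hc]
  decide +kernel

theorem main734 :
    ∃ c : ℝ, 0 < c ∧ ∀ N : ℕ, 1 ≤ N →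
      ∃ A : Finset ℕ, (∀ x ∈ A, 1 ≤ x ∧ x ≤ N) ∧
        (∀ x ∈ A, ∀ y ∈ A, ∀ n : ℕ, 1 ≤ n → (x : ℤ) - y ≠ (n : ℤ) ^ 2) ∧
        c * (N : ℝ) ^ ((367 : ℝ) / 500) ≤ (A.card : ℝ) := by
  have := final_of_good (one_lt_base (k := 825) (by norm_num) 1000) (good_S_square 825 1000)
    367 500 (by norm_num) numeric734
  simpa using this

end Vale.Agent.P042
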