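import Mathlib
import Vale.Agent.P042.Tower

namespace Vale.Agent.P042

lemma numeric7343 :
    (((5 ^ 4124 * 41 ^ 5000) ^ 2) ^ 7343 : ℕ) ≤ (S 4124 5000).card ^ 10000 := by
  rw [card_S]
  have hc : Nat.choose 5000 4124 = Nat.descFactorial 5000 876 / Nat.factorial 876 := by
    rw [Nat.choose_symm_of_eq_add (show 5000 = 4124 + 876 by norm_num),
      Nat.choose_eq_descFactorial_div_factorial]
  rw [hc]
  decide +kernel

theorem main7343 :
    ∃ c : ℝ, 0 < c ∧ ∀ N : ℕ, 1 ≤ N →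
      ∃ A : Finset ℕ, (∀ x ∈ A, 1 ≤ x ∧ x ≤ N) ∧
        (∀ x ∈ A, ∀ y ∈ A, ∀ n : ℕ, 1 ≤ n → (x : ℤ) - y ≠ (n : ℤ) ^ 2) ∧
        c * (N : ℝ) ^ ((7343 : ℝ) / 10000) ≤ (A.card : ℝ) := by
  have := final_of_good (one_lt_base (k := 4124) (by norm_num) 5000) (good_S_square 4124 5000)
    7343 10000 (by norm_num) numeric7343
  simpa using this

end Vale.Agent.P042
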